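import Mathlib

/-!
# P110: definitions
-/

set_option autoImplicit false

namespace Vale.Agent.P110K

open Filter

/-- the polynomial with coefficients `ε 0, ..., ε (N-1)` -/
noncomputable def ev {N : ℕ} (ε : Fin N → ℝ) (z : ℂ) : ℂ := ∑ k : Fin N, (ε k : ℂ) * z ^ (k : ℕ)

/-- coefficients `1` and `-1` -/
def IsLittlewood {N : ℕ} (ε : Fin N → ℝ) : Prop := ∀ k, ε k = 1 ∨ ε k = -1

/-- the modulus is between `(1 - c) √N` and `(1 + c) √N` on the unit circle -/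
def Flat {N : ℕ} (c : ℝ) (ε : Fin N → ℝ) : Prop :=
  ∀ z : ℂ, ‖z‖ = 1 → (1 - c) * √(N : ℝ) ≤ ‖ev ε z‖ ∧ ‖ev ε z‖ ≤ (1 + c) * √(N : ℝ)

/-- ultraflat sequence of real Littlewood polynomials -/
def Ultraflat (N : ℕ → ℕ) (P : (n : ℕ) → Fin (N n) → ℝ) : Prop :=
  (∀ n, IsLittlewood (P n)) ∧ Tendsto N atTop atTop ∧ ∀ c > (0 : ℝ), ∀ᶠ n in atTop, Flat c (P n)

/-- coefficients of `A(z) B(z^m)` where `A` has length `m` and `B` has length `k`: the block
`A` repeated `k` times with the signs of `B` -/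
def kron {k m : ℕ} (b : Fin k → ℝ) (a : Fin m → ℝ) (i : Fin (k * m)) : ℝ :=
  b i.divNat * a i.modNat

end Vale.Agent.P110K
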