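import Vale.Agent.P110K.Defs

/-!
# P110: Kronecker products
-/

set_option autoImplicit false

namespace Vale.Agent.P110K

open Filter Finset

theorem ev_kron {k m : ℕ} (b : Fin k → ℝ) (a : Fin m → ℝ) (z : ℂ) :
    ev (kron b a) z = ev a z * ev b (z ^ m) := by
  unfold ev
  rw [← finProdFinEquiv.sum_comp, Fintype.sum_prod_type, Finset.sum_comm, Finset.sum_mul_sum]
  refine Finset.sum_congr rfl fun r _ => Finset.sum_congr rfl fun j _ => ?_
  have h1 : kron b a (finProdFinEquiv (j, r)) = b j * a r := by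
    have h := finProdFinEquiv.symm_apply_apply (j, r)
    rw [finProdFinEquiv_symm_apply, Prod.mk.injEq] at h
    unfold kron
    rw [h.1, h.2]
  rw [h1, finProdFinEquiv_apply_val]
  push_cast
  rw [pow_add, pow_mul]
  ring

theorem kron_littlewood {k m : ℕ} {b : Fin k → ℝ} {a : Fin m → ℝ} (hb : IsLittlewood b)
    (ha : IsLittlewood a) : IsLittlewood (kron b a) := by
  intro i
  unfold kron
  rcases hb i.divNat with h | h <;> rcases ha i.modNat with h' | h' <;> rw [h, h'] <;> simp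

theorem parseval (M : ℕ) (hM : 0 < M) : ∃ ζ : Fin M → ℂ, (∀ j, ζ j ^ M = 1) ∧
    ∀ d : Fin M → ℂ, ∑ j, ‖∑ r, d r * ζ j ^ (r : ℕ)‖ ^ 2 = M * ∑ r, ‖d r‖ ^ 2 := by
  have hω := Complex.isPrimitiveRoot_exp M hM.ne'
  set ω : ℂ := Complex.exp (2 * Real.pi * Complex.I / M) with hω'
  have hnorm : ‖ω‖ = 1 := hω.norm'_eq_one hM.ne'
  have hconj : ω * (starRingEnd ℂ) ω = 1 := by
    rw [Complex.mul_conj, Complex.normSq_eq_norm_sq, hnorm]; simp
  refine ⟨fun j => ω ^ (j : ℕ), fun j => ?_, fun d => ?_⟩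
  · rw [← pow_mul, mul_comm, pow_mul, hω.pow_eq_one, one_pow]
  · have key : ∀ r s : Fin M, ∑ j : Fin M, (ω ^ (j : ℕ)) ^ (r : ℕ) *
        (starRingEnd ℂ) ((ω ^ (j : ℕ)) ^ (s : ℕ)) = if r = s then (M : ℂ) else 0 := by
      intro r s
      have h1 : ∀ j : Fin M, (ω ^ (j : ℕ)) ^ (r : ℕ) * (starRingEnd ℂ) ((ω ^ (j : ℕ)) ^ (s : ℕ)) =
          (ω ^ (r : ℕ) * (starRingEnd ℂ) ω ^ (s : ℕ)) ^ (j : ℕ) := by
        intro j
        rw [map_pow, map_pow, mul_pow, ← pow_mul, ← pow_mul, ← pow_mul, ← pow_mul,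
          mul_comm (j : ℕ) (r : ℕ), mul_comm (j : ℕ) (s : ℕ)]
      rw [Finset.sum_congr rfl fun j _ => h1 j]
      rw [Fin.sum_univ_eq_sum_range (fun j => (ω ^ (r : ℕ) * (starRingEnd ℂ) ω ^ (s : ℕ)) ^ j) M]
      split_ifs with hrs
      · subst hrs
        rw [← mul_pow, hconj]
        simp
      · have hne : ω ^ (r : ℕ) * (starRingEnd ℂ) ω ^ (s : ℕ) ≠ 1 := by
          intro h
          apply hrs
          have h2 : ω ^ (r : ℕ) = ω ^ (s : ℕ) := by
            calc ω ^ (r : ℕ) = ω ^ (r : ℕ) * (ω * (starRingEnd ℂ) ω) ^ (s : ℕ) := by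
                  rw [hconj]; simp
              _ = ω ^ (r : ℕ) * (starRingEnd ℂ) ω ^ (s : ℕ) * ω ^ (s : ℕ) := by
                  rw [mul_pow]; ring
              _ = ω ^ (s : ℕ) := by rw [h, one_mul]
          exact Fin.ext (hω.pow_inj r.2 s.2 h2)
        have hM1 : (ω ^ (r : ℕ) * (starRingEnd ℂ) ω ^ (s : ℕ)) ^ M = 1 := by
          rw [mul_pow, ← pow_mul, mul_comm (r : ℕ) M, pow_mul, hω.pow_eq_one, one_pow, one_mul,
            ← pow_mul, mul_comm (s : ℕ) M, pow_mul, ← map_pow, hω.pow_eq_one, map_one, one_pow]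
        rw [geom_sum_eq hne, hM1, sub_self, zero_div]
    have h2 : ((∑ j : Fin M, ‖∑ r, d r * (ω ^ (j : ℕ)) ^ (r : ℕ)‖ ^ 2 : ℝ) : ℂ) =
        ((M * ∑ r, ‖d r‖ ^ 2 : ℝ) : ℂ) := by
      push_cast
      have h3 : ∀ w : ℂ, ((‖w‖ : ℂ)) ^ 2 = w * (starRingEnd ℂ) w := by
        intro w
        rw [Complex.mul_conj, Complex.normSq_eq_norm_sq]
        push_cast
        rfl
      calc ∑ j : Fin M, ((‖∑ r, d r * (ω ^ (j : ℕ)) ^ (r : ℕ)‖ : ℂ)) ^ 2
          = ∑ j : Fin M, ∑ r, ∑ s, (d r * (starRingEnd ℂ) (d s)) * ((ω ^ (j : ℕ)) ^ (r : ℕ) *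
              (starRingEnd ℂ) ((ω ^ (j : ℕ)) ^ (s : ℕ))) := by
            refine Finset.sum_congr rfl fun j _ => ?_
            rw [h3, map_sum, Finset.sum_mul_sum]
            refine Finset.sum_congr rfl fun r _ => Finset.sum_congr rfl fun s _ => ?_
            rw [map_mul]; ring
        _ = ∑ r, ∑ s, (d r * (starRingEnd ℂ) (d s)) * ∑ j : Fin M, ((ω ^ (j : ℕ)) ^ (r : ℕ) *
              (starRingEnd ℂ) ((ω ^ (j : ℕ)) ^ (s : ℕ))) := by
            rw [Finset.sum_comm]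
            refine Finset.sum_congr rfl fun r _ => ?_
            rw [Finset.sum_comm]
            refine Finset.sum_congr rfl fun s _ => ?_
            rw [Finset.mul_sum]
        _ = ∑ r, (d r * (starRingEnd ℂ) (d r)) * M := by
            refine Finset.sum_congr rfl fun r _ => ?_
            rw [Finset.sum_eq_single r]
            · rw [key, if_pos rfl]
            · intro s _ hs
              rw [key, if_neg hs.symm, mul_zero]
            · intro h; exact absurd (Finset.mem_univ _) h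
        _ = M * ∑ r, ((‖d r‖ : ℂ)) ^ 2 := by
            rw [← Finset.sum_mul, mul_comm]
            congr 1
            exact Finset.sum_congr rfl fun r _ => (h3 _).symm
    exact_mod_cast h2

/-- averaging over the `m`-th roots of unity -/
theorem avg {m : ℕ} (hm : 0 < m) {a : Fin m → ℝ} (ha : IsLittlewood a) : ∃ ζ : Fin m → ℂ,
    (∀ j, ζ j ^ m = 1) ∧ ∀ z : ℂ, ‖z‖ = 1 → ∑ j, ‖ev a (ζ j * z)‖ ^ 2 = (m : ℝ) * m := by
  obtain ⟨ζ, h1, h2⟩ := parseval m hm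
  refine ⟨ζ, h1, fun z hz => ?_⟩
  have h3 := h2 (fun r => (a r : ℂ) * z ^ (r : ℕ))
  have h4 : ∀ r : Fin m, ‖(a r : ℂ) * z ^ (r : ℕ)‖ ^ 2 = 1 := by
    intro r
    rw [norm_mul, norm_pow, hz, one_pow, mul_one, Complex.norm_real]
    rcases ha r with h | h <;> rw [h] <;> simp
  rw [Finset.sum_congr rfl fun r _ => h4 r] at h3
  simp only [Finset.sum_const, Finset.card_univ, Fintype.card_fin, nsmul_eq_mul, mul_one] at h3
  rw [← h3]
  refine Finset.sum_congr rfl fun j _ => ?_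
  unfold ev
  congr 2
  refine Finset.sum_congr rfl fun r _ => ?_
  rw [mul_pow]; ring

theorem norm_root {m : ℕ} (hm : 0 < m) {ζ : ℂ} (h : ζ ^ m = 1) : ‖ζ‖ = 1 := by
  have h1 : ‖ζ‖ ^ m = 1 := by rw [← norm_pow, h, norm_one]
  exact (pow_eq_one_iff_of_nonneg (norm_nonneg _) hm.ne').1 h1

/-- flatness passes to the outer factor -/
theorem flat_outer {k m : ℕ} (hm : 0 < m) {b : Fin k → ℝ} {a : Fin m → ℝ} (ha : IsLittlewood a)
    {c : ℝ} (hc0 : 0 ≤ c) (hc1 : c ≤ 1) (h : Flat c (kron b a)) : Flat c b := by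
  obtain ⟨ζ, hζ1, hζ2⟩ := avg hm ha
  intro w hw
  obtain ⟨z, hz⟩ : ∃ z : ℂ, z ^ m = w := IsAlgClosed.exists_pow_nat_eq w hm
  have hz1 : ‖z‖ = 1 := by
    have h1 : ‖z‖ ^ m = 1 := by rw [← norm_pow, hz, hw]
    exact (pow_eq_one_iff_of_nonneg (norm_nonneg _) hm.ne').1 h1
  have hval : ∀ j, ‖ev (kron b a) (ζ j * z)‖ ^ 2 = ‖ev a (ζ j * z)‖ ^ 2 * ‖ev b w‖ ^ 2 := by
    intro j
    rw [ev_kron, norm_mul, mul_pow, mul_pow, hζ1, one_mul, hz]
  have hm' : (0 : ℝ) < m := by exact_mod_cast hm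
  have hsum : ∑ j, ‖ev (kron b a) (ζ j * z)‖ ^ 2 = (m : ℝ) * m * ‖ev b w‖ ^ 2 := by
    rw [Finset.sum_congr rfl fun j _ => hval j, ← Finset.sum_mul, hζ2 z hz1]
  have hpt : ∀ j, ‖ζ j * z‖ = 1 := by
    intro j
    rw [norm_mul, norm_root hm (hζ1 j), hz1, one_mul]
  have hN : √((k * m : ℕ) : ℝ) ^ 2 = k * m := by
    rw [Real.sq_sqrt (by positivity)]; push_cast; ring
  have hk : √(k : ℝ) ^ 2 = k := Real.sq_sqrt (by positivity)
  have hup : ∑ j, ‖ev (kron b a) (ζ j * z)‖ ^ 2 ≤ m * ((1 + c) ^ 2 * (k * m)) := by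
    calc ∑ j, ‖ev (kron b a) (ζ j * z)‖ ^ 2 ≤ ∑ _j : Fin m, (1 + c) ^ 2 * ((k : ℝ) * m) := by
          refine Finset.sum_le_sum fun j _ => ?_
          rw [← hN, ← mul_pow]
          exact pow_le_pow_left₀ (norm_nonneg _) (h _ (hpt j)).2 2
      _ = m * ((1 + c) ^ 2 * (k * m)) := by
          rw [Finset.sum_const, Finset.card_univ, Fintype.card_fin, nsmul_eq_mul]
  have hlo : m * ((1 - c) ^ 2 * (k * m)) ≤ ∑ j, ‖ev (kron b a) (ζ j * z)‖ ^ 2 := by
    calc (m : ℝ) * ((1 - c) ^ 2 * (k * m)) = ∑ _j : Fin m, (1 - c) ^ 2 * ((k : ℝ) * m) := by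
          rw [Finset.sum_const, Finset.card_univ, Fintype.card_fin, nsmul_eq_mul]
      _ ≤ ∑ j, ‖ev (kron b a) (ζ j * z)‖ ^ 2 := by
          refine Finset.sum_le_sum fun j _ => ?_
          rw [← hN, ← mul_pow]
          exact pow_le_pow_left₀ (mul_nonneg (by linarith) (Real.sqrt_nonneg _))
            (h _ (hpt j)).1 2
  rw [hsum] at hup hlo
  have h1 : ‖ev b w‖ ^ 2 ≤ (1 + c) ^ 2 * k := by
    have : (m : ℝ) * m * ‖ev b w‖ ^ 2 ≤ (m : ℝ) * m * ((1 + c) ^ 2 * k) := by nlinarith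
    exact le_of_mul_le_mul_left this (by positivity)
  have h2 : (1 - c) ^ 2 * k ≤ ‖ev b w‖ ^ 2 := by
    have : (m : ℝ) * m * ((1 - c) ^ 2 * k) ≤ (m : ℝ) * m * ‖ev b w‖ ^ 2 := by nlinarith
    exact le_of_mul_le_mul_left this (by positivity)
  constructor
  · apply le_of_sq_le_sq _ (norm_nonneg _)
    rw [mul_pow, hk]; exact h2
  · apply le_of_sq_le_sq _ (by positivity)
    rw [mul_pow, hk]; exact h1

end Vale.Agent.P110K
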