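import Vale.Agent.P110K.Main

/-!
# P110: inner factor, end coefficients, sequences
-/

set_option autoImplicit false

namespace Vale.Agent.P110K

open Filter Finset

theorem Flat.mono {N : ℕ} {c c' : ℝ} {ε : Fin N → ℝ} (h : Flat c ε) (hc : c ≤ c') :
    Flat c' ε := by
  intro z hz
  obtain ⟨h1, h2⟩ := h z hz
  have h3 := Real.sqrt_nonneg (N : ℝ)
  constructor
  · exact le_trans (mul_le_mul_of_nonneg_right (by linarith) h3) h1
  · exact h2.trans (mul_le_mul_of_nonneg_right (by linarith) h3)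

/-- flatness passes to the inner factor -/
theorem flat_inner {k m : ℕ} (hk : 0 < k) (hm : 0 < m) {b : Fin k → ℝ} {a : Fin m → ℝ}
    (ha : IsLittlewood a) {c : ℝ} (hc0 : 0 ≤ c) (hc1 : c < 1) (h : Flat c (kron b a)) :
    Flat (2 * c / (1 - c)) a := by
  have hb := flat_outer hm ha hc0 hc1.le h
  intro z hz
  have hz' : ‖z ^ m‖ = 1 := by rw [norm_pow, hz, one_pow]
  obtain ⟨h1, h2⟩ := h z hz
  obtain ⟨h3, h4⟩ := hb _ hz'
  rw [ev_kron, norm_mul] at h1 h2
  have hsq : √((k * m : ℕ) : ℝ) = √(k : ℝ) * √(m : ℝ) := by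
    push_cast
    rw [Real.sqrt_mul (by positivity)]
  rw [hsq] at h1 h2
  have hk' : 0 < √(k : ℝ) := Real.sqrt_pos.2 (by exact_mod_cast hk)
  have hm' : 0 < √(m : ℝ) := Real.sqrt_pos.2 (by exact_mod_cast hm)
  set x := ‖ev a z‖ with hx
  set y := ‖ev b (z ^ m)‖ with hy
  have hx0 : 0 ≤ x := norm_nonneg _
  have h1c : 0 < 1 - c := by linarith
  have e1 : 1 + 2 * c / (1 - c) = (1 + c) / (1 - c) := by field_simp; ring
  constructor
  · have h5 : (1 - c) * √(m : ℝ) ≤ x * (1 + c) := by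
      have h6 : x * y ≤ x * ((1 + c) * √(k : ℝ)) := mul_le_mul_of_nonneg_left h4 hx0
      have h7 : √(k : ℝ) * ((1 - c) * √(m : ℝ)) ≤ √(k : ℝ) * (x * (1 + c)) := by nlinarith
      exact le_of_mul_le_mul_left h7 hk'
    have h6 : 1 - 2 * c / (1 - c) ≤ (1 - c) / (1 + c) := by
      have e2 : (1 - c) / (1 + c) = 1 - 2 * c / (1 + c) := by
        have : 1 + c ≠ 0 := by positivity
        field_simp; ring
      rw [e2]
      have : 2 * c / (1 + c) ≤ 2 * c / (1 - c) := by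
        apply div_le_div_of_nonneg_left (by linarith) h1c (by linarith)
      linarith
    calc (1 - 2 * c / (1 - c)) * √(m : ℝ) ≤ (1 - c) / (1 + c) * √(m : ℝ) := by gcongr
      _ = ((1 - c) * √(m : ℝ)) / (1 + c) := by ring
      _ ≤ x := by rw [div_le_iff₀ (by linarith)]; exact h5
  · rw [e1]
    have h5 : x * (1 - c) ≤ (1 + c) * √(m : ℝ) := by
      have h6 : x * ((1 - c) * √(k : ℝ)) ≤ x * y := mul_le_mul_of_nonneg_left h3 hx0
      have h7 : √(k : ℝ) * (x * (1 - c)) ≤ √(k : ℝ) * ((1 + c) * √(m : ℝ)) := by nlinarith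
      exact le_of_mul_le_mul_left h7 hk'
    calc x ≤ ((1 + c) * √(m : ℝ)) / (1 - c) := by rw [le_div_iff₀ h1c]; exact h5
      _ = (1 + c) / (1 - c) * √(m : ℝ) := by ring

/-- the end coefficients force a value of size at least `√(k+2)` -/
theorem top {M : ℕ} {b : Fin (M + 2) → ℝ} (hb : IsLittlewood b) {c : ℝ}
    (h : Flat c b) : (M : ℝ) + 4 ≤ (1 + c) ^ 2 * (M + 2) := by
  obtain ⟨ζ, hζ1, hζ2⟩ := parseval (M + 1) (Nat.succ_pos M)
  obtain ⟨z, hz⟩ : ∃ z : ℂ, z ^ (M + 1) = ((b 0 * b (Fin.last (M + 1)) : ℝ) : ℂ) :=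
    IsAlgClosed.exists_pow_nat_eq _ (Nat.succ_pos M)
  have hbb : ∀ i, b i * b i = 1 := by
    intro i; rcases hb i with h | h <;> rw [h] <;> norm_num
  have hbn : ∀ i, |b i| = 1 := by
    intro i; rcases hb i with h | h <;> rw [h] <;> norm_num
  have hz1 : ‖z‖ = 1 := by
    have h1 : ‖z‖ ^ (M + 1) = 1 := by
      rw [← norm_pow, hz, Complex.norm_real, Real.norm_eq_abs, abs_mul, hbn, hbn, one_mul]
    exact (pow_eq_one_iff_of_nonneg (norm_nonneg _) (Nat.succ_ne_zero M)).1 h1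
  set d : Fin (M + 1) → ℂ := fun r => (b r.castSucc : ℂ) * z ^ (r : ℕ) +
    if r = 0 then (b (Fin.last (M + 1)) : ℂ) * z ^ (M + 1) else 0 with hd
  have hev : ∀ j, ev b (ζ j * z) = ∑ r, d r * ζ j ^ (r : ℕ) := by
    intro j
    unfold ev
    rw [Fin.sum_univ_castSucc]
    simp only [hd, add_mul, Finset.sum_add_distrib]
    congr 1
    · refine Finset.sum_congr rfl fun r _ => ?_
      rw [mul_pow, Fin.val_castSucc]; ring
    · rw [Finset.sum_eq_single (0 : Fin (M + 1))]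
      · rw [if_pos rfl, Fin.val_last, mul_pow, hζ1]
        simp
      · intro r _ hr
        rw [if_neg hr, zero_mul]
      · intro h; exact absurd (Finset.mem_univ _) h
  have hsum := hζ2 d
  have hd0 : ‖d 0‖ ^ 2 = 4 := by
    have : d 0 = ((2 * b 0 : ℝ) : ℂ) := by
      simp only [hd, if_pos]
      rw [hz]
      have e := hbb (Fin.last (M + 1))
      simp only [Fin.castSucc_zero, Fin.val_zero, pow_zero, mul_one]
      rw [← Complex.ofReal_mul, ← Complex.ofReal_add]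
      congr 1
      calc b 0 + b (Fin.last (M + 1)) * (b 0 * b (Fin.last (M + 1)))
          = b 0 + b 0 * (b (Fin.last (M + 1)) * b (Fin.last (M + 1))) := by ring
        _ = 2 * b 0 := by rw [e]; ring
    rw [this, Complex.norm_real, Real.norm_eq_abs, abs_mul, hbn]
    norm_num
  have hdr : ∀ r : Fin M, ‖d r.succ‖ ^ 2 = 1 := by
    intro r
    simp only [hd, if_neg (Fin.succ_ne_zero r), add_zero]
    rw [norm_mul, norm_pow, hz1, one_pow, mul_one, Complex.norm_real, Real.norm_eq_abs, hbn,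
      one_pow]
  have hds : ∑ r, ‖d r‖ ^ 2 = (M : ℝ) + 4 := by
    rw [Fin.sum_univ_succ, hd0, Finset.sum_congr rfl fun r _ => hdr r]
    simp; ring
  rw [hds] at hsum
  have hpt : ∀ j, ‖ζ j * z‖ = 1 := by
    intro j
    rw [norm_mul, norm_root (Nat.succ_pos M) (hζ1 j), hz1, one_mul]
  have hsq : √((M + 2 : ℕ) : ℝ) ^ 2 = M + 2 := by
    rw [Real.sq_sqrt (by positivity)]; push_cast; ring
  have hup : ∑ j, ‖∑ r, d r * ζ j ^ (r : ℕ)‖ ^ 2 ≤ ((M + 1 : ℕ) : ℝ) * ((1 + c) ^ 2 * (M + 2)) := by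
    calc ∑ j, ‖∑ r, d r * ζ j ^ (r : ℕ)‖ ^ 2 ≤ ∑ _j : Fin (M + 1), (1 + c) ^ 2 * ((M : ℝ) + 2) := by
          refine Finset.sum_le_sum fun j _ => ?_
          rw [← hev, ← hsq, ← mul_pow]
          exact pow_le_pow_left₀ (norm_nonneg _) (h _ (hpt j)).2 2
      _ = ((M + 1 : ℕ) : ℝ) * ((1 + c) ^ 2 * (M + 2)) := by
          rw [Finset.sum_const, Finset.card_univ, Fintype.card_fin, nsmul_eq_mul]
  rw [hsum] at hup
  exact le_of_mul_le_mul_left hup (by positivity)

theorem lower {k : ℕ} (hk : 2 ≤ k) {b : Fin k → ℝ} (hb : IsLittlewood b) {c : ℝ}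
    (h : Flat c b) : (k : ℝ) + 2 ≤ (1 + c) ^ 2 * k := by
  obtain ⟨M, rfl⟩ : ∃ M, k = M + 2 := ⟨k - 2, by omega⟩
  have := top hb h
  push_cast
  linarith

theorem lower_outer {k m : ℕ} (hk : 2 ≤ k) (hm : 0 < m) {b : Fin k → ℝ} {a : Fin m → ℝ}
    (hb : IsLittlewood b) (ha : IsLittlewood a) {c : ℝ} (hc0 : 0 ≤ c) (hc1 : c < 1)
    (h : Flat c (kron b a)) : 2 / (3 * (k : ℝ)) ≤ c := by
  have h1 := lower hk hb (flat_outer hm ha hc0 hc1.le h)
  have hk' : (0 : ℝ) < k := by exact_mod_cast (by omega : 0 < k)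
  rw [div_le_iff₀ (by positivity)]
  nlinarith

theorem lower_inner {k m : ℕ} (hk : 0 < k) (hm : 2 ≤ m) {b : Fin k → ℝ} {a : Fin m → ℝ}
    (ha : IsLittlewood a) {c : ℝ} (hc0 : 0 ≤ c) (hc1 : c < 1)
    (h : Flat c (kron b a)) : 1 / (4 * (m : ℝ)) ≤ c := by
  have h1 := lower hm ha (flat_inner hk (by omega) ha hc0 hc1 h)
  have hm' : (2 : ℝ) ≤ m := by exact_mod_cast hm
  by_cases hc : c ≤ 1 / 8
  · have h1c : 0 < 1 - c := by linarith
    have e1 : 1 + 2 * c / (1 - c) = (1 + c) / (1 - c) := by field_simp; ring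
    rw [e1, div_pow, div_mul_eq_mul_div, le_div_iff₀ (by positivity)] at h1
    rw [div_le_iff₀ (by positivity)]
    nlinarith
  · push Not at hc
    rw [div_le_iff₀ (by positivity)]
    nlinarith

theorem flat_kron {k m : ℕ} {b : Fin k → ℝ} {a : Fin m → ℝ} {c : ℝ} (hc0 : 0 ≤ c) (hc1 : c ≤ 1)
    (hb : Flat c b) (ha : Flat c a) : Flat (3 * c) (kron b a) := by
  intro z hz
  have hz' : ‖z ^ m‖ = 1 := by rw [norm_pow, hz, one_pow]
  obtain ⟨h1, h2⟩ := ha z hz
  obtain ⟨h3, h4⟩ := hb _ hz'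
  rw [ev_kron, norm_mul]
  have hsq : √((k * m : ℕ) : ℝ) = √(k : ℝ) * √(m : ℝ) := by
    push_cast
    rw [Real.sqrt_mul (by positivity)]
  rw [hsq]
  have hk' : 0 ≤ √(k : ℝ) := Real.sqrt_nonneg _
  have hm' : 0 ≤ √(m : ℝ) := Real.sqrt_nonneg _
  have hkm : 0 ≤ √(k : ℝ) * √(m : ℝ) := mul_nonneg hk' hm'
  constructor
  · have h5 : (1 - c) * √(m : ℝ) * ((1 - c) * √(k : ℝ)) ≤ ‖ev a z‖ * ‖ev b (z ^ m)‖ :=
      mul_le_mul h1 h3 (mul_nonneg (by linarith) hk') (norm_nonneg _)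
    have h6 : (1 - 3 * c) * (√(k : ℝ) * √(m : ℝ)) ≤ (1 - c) ^ 2 * (√(k : ℝ) * √(m : ℝ)) :=
      mul_le_mul_of_nonneg_right (by nlinarith) hkm
    linarith
  · have h5 : ‖ev a z‖ * ‖ev b (z ^ m)‖ ≤ (1 + c) * √(m : ℝ) * ((1 + c) * √(k : ℝ)) :=
      mul_le_mul h2 h4 (norm_nonneg _) (mul_nonneg (by linarith) hm')
    have h6 : (1 + c) ^ 2 * (√(k : ℝ) * √(m : ℝ)) ≤ (1 + 3 * c) * (√(k : ℝ) * √(m : ℝ)) :=
      mul_le_mul_of_nonneg_right (by nlinarith) hkm
    linarith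

theorem seq_iff (k m : ℕ → ℕ) (b : (n : ℕ) → Fin (k n) → ℝ) (a : (n : ℕ) → Fin (m n) → ℝ)
    (hk : ∀ n, 2 ≤ k n) (hm : ∀ n, 2 ≤ m n) (hb : ∀ n, IsLittlewood (b n))
    (ha : ∀ n, IsLittlewood (a n)) :
    Ultraflat (fun n => k n * m n) (fun n => kron (b n) (a n)) ↔ Ultraflat k b ∧ Ultraflat m a := by
  constructor
  · rintro ⟨_, _, h⟩
    refine ⟨⟨hb, ?_, ?_⟩, ⟨ha, ?_, ?_⟩⟩
    · rw [tendsto_atTop]
      intro K
      have hK : (0 : ℝ) < 1 / (3 * (K + 1)) := by positivity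
      have hK1 : (1 : ℝ) / (3 * (K + 1)) < 1 := by
        rw [div_lt_one (by positivity)]; nlinarith [(Nat.cast_nonneg K : (0 : ℝ) ≤ K)]
      filter_upwards [h _ hK] with n hn
      have h1 := lower_outer (hk n) (by have := hm n; omega) (hb n) (ha n) hK.le hK1 hn
      have hk' : (0 : ℝ) < k n := by exact_mod_cast (by have := hk n; omega : 0 < k n)
      rw [div_le_div_iff₀ (by positivity) (by positivity)] at h1
      have : (K : ℝ) ≤ k n := by nlinarith
      exact_mod_cast this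
    · intro c hc
      filter_upwards [h (min c (1 / 2)) (by positivity)] with n hn
      exact (flat_outer (by have := hm n; omega) (ha n) (by positivity)
        ((min_le_right _ _).trans (by norm_num)) hn).mono (min_le_left _ _)
    · rw [tendsto_atTop]
      intro K
      have hK : (0 : ℝ) < 1 / (4 * (K + 1)) := by positivity
      have hK1 : (1 : ℝ) / (4 * (K + 1)) < 1 := by
        rw [div_lt_one (by positivity)]; nlinarith [(Nat.cast_nonneg K : (0 : ℝ) ≤ K)]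
      filter_upwards [h _ hK] with n hn
      have h1 := lower_inner (by have := hk n; omega) (hm n) (ha n) hK.le hK1 hn
      have hm' : (0 : ℝ) < m n := by exact_mod_cast (by have := hm n; omega : 0 < m n)
      rw [div_le_div_iff₀ (by positivity) (by positivity)] at h1
      have : (K : ℝ) ≤ m n := by nlinarith
      exact_mod_cast this
    · intro c hc
      filter_upwards [h (min (c / 4) (1 / 2)) (by positivity)] with n hn
      have hc2 : min (c / 4) (1 / 2) ≤ 1 / 2 := min_le_right _ _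
      have hc4 : min (c / 4) (1 / 2) ≤ c / 4 := min_le_left _ _
      have hc0 : 0 < min (c / 4) (1 / 2) := by positivity
      refine (flat_inner (by have := hk n; omega) (by have := hm n; omega) (ha n) hc0.le
        (by linarith) hn).mono ?_
      rw [div_le_iff₀ (by linarith)]
      nlinarith
  · rintro ⟨⟨_, hkt, hbf⟩, ⟨_, hmt, haf⟩⟩
    refine ⟨fun n => kron_littlewood (hb n) (ha n), hkt.atTop_mul_atTop₀ hmt, ?_⟩
    intro c hc
    filter_upwards [hbf (min (c / 3) 1) (by positivity), haf (min (c / 3) 1) (by positivity)]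
      with n h1 h2
    refine (flat_kron (by positivity) (min_le_right _ _) h1 h2).mono ?_
    have := min_le_left (c / 3) 1
    linarith

end Vale.Agent.P110K
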